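import Vale.Agent.P325.Star.Defs

/-!
# Blocks, canonical symbols, tables, the outer game

Statements of the remaining packages of the star hardness project.
-/

namespace Vale.Agent.P325.Star

open Finset

/-- An equation `x + y + z = b` modulo `2`, as `((x, y, z), b)` (the format of P333). -/
abbrev Eqn := (ℕ × ℕ × ℕ) × Bool

/-- The right hand side of an equation. -/
def Eqn.rhs (e : Eqn) : F := if e.2 then 1 else 0

/-- The equation is violated by the assignment. -/
def Eqn.Viol (x : ℕ → Bool) (e : Eqn) : Prop := xor (xor (x e.1.1) (x e.1.2.1)) (x e.1.2.2) ≠ e.2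

instance (x : ℕ → Bool) (e : Eqn) : Decidable (e.Viol x) := by unfold Eqn.Viol; infer_instance

/-- Canonical symbols: the coefficient of a block in a table entry. -/
inductive Sym (W : Type) where
  | zero : Sym W
  | single (x : ℕ) (c : W) : Sym W
  | full (e : Eqn) (n₁ n₂ : W) : Sym W

section Sym

variable {W : Type} [AddCommGroup W] [Module F W] [DecidableEq W]

/-- The symbol of the coefficients `n = (n₁, n₂)` of the first two variables of `e`. -/
def symF (e : Eqn) (n : W × W) : Sym W :=
  if n.2 = 0 then (if n.1 = 0 then .zero else .single e.1.1 n.1)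
  else if n.1 = 0 then .single e.1.2.1 n.2
  else if n.1 = n.2 then .single e.1.2.2 n.1
  else .full e n.1 n.2

/-- The constant created by passing to the symbol. -/
def shF (e : Eqn) (n : W × W) : W := if n.1 = n.2 then e.rhs • n.1 else 0

/-- The table of a tuple of equations given by a labelling `f` of the tuples of symbols. -/
def tabU {k : ℕ} (f : (Fin k → Sym W) → W) (e : Fin k → Eqn) (n : Fin k → W × W) : W :=
  f (fun i => symF (e i) (n i)) + ∑ i, shF (e i) (n i)

/-- Addition of the rank one map `c ⊗ l`. -/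
def bump {k : ℕ} (n : Fin k → W × W) (c : W) (l : Fin k → F × F) : Fin k → W × W :=
  fun i => ((n i).1 + (l i).1 • c, (n i).2 + (l i).2 • c)

/-- A block of a question of the second prover. -/
inductive VB where
  | full (e : Eqn) : VB
  | single (x : ℕ) : VB
  | dropped : VB

/-- The symbol of a block of the second prover (of `n` only the visible part is used). -/
def symV (q : VB) (n : W × W) : Sym W :=
  match q with
  | .full e => symF e n
  | .single x => if n.1 = 0 then .zero else .single x n.1
  | .dropped => .zero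

/-- The constant of a block of the second prover. -/
def shV (q : VB) (n : W × W) : W :=
  match q with
  | .full e => shF e n
  | .single _ => 0
  | .dropped => 0

/-- The table of a question of the second prover. -/
def tabV {k : ℕ} (f : (Fin k → Sym W) → W) (q : Fin k → VB) (n : Fin k → W × W) : W :=
  f (fun i => symV (q i) (n i)) + ∑ i, shV (q i) (n i)

end Sym

/-- The type of a block: kept, replaced by its first, second, third variable, or dropped. -/
inductive Ty where
  | full | s1 | s2 | s3 | dr
  deriving DecidableEq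

instance : Fintype Ty :=
  ⟨{.full, .s1, .s2, .s3, .dr}, fun τ => by cases τ <;> simp⟩

/-- The block of the second prover for the equation `e`. -/
def Ty.vb (τ : Ty) (e : Eqn) : VB :=
  match τ with
  | .full => .full e
  | .s1 => .single e.1.1
  | .s2 => .single e.1.2.1
  | .s3 => .single e.1.2.2
  | .dr => .dropped

/-- The probabilities of the types. -/
noncomputable def Ty.wt (β : ℝ) (τ : Ty) : ℝ :=
  match τ with
  | .full => 1 - β
  | .s1 => β / 6
  | .s2 => β / 6
  | .s3 => β / 6
  | .dr => β / 2

/-- The probability of a tuple of types. -/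
noncomputable def wts {k : ℕ} (β : ℝ) (τ : Fin k → Ty) : ℝ := ∏ i, (τ i).wt β

section Lift

variable {C : Type} [Zero C]

/-- The part of the coefficients visible to the second prover. -/
def Ty.vis (τ : Ty) (n : C × C) : C × C :=
  match τ with
  | .full => n
  | .s1 => (n.1, 0)
  | .s2 => (n.1, 0)
  | .s3 => (n.1, 0)
  | .dr => (0, 0)

/-- The coefficients seen from the first prover. -/
def Ty.lift (τ : Ty) (n : C × C) : C × C :=
  match τ with
  | .full => n
  | .s1 => (n.1, 0)
  | .s2 => (0, n.1)
  | .s3 => (n.1, n.1)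
  | .dr => (0, 0)

end Lift

/-- The value of the variable selected by `τ` under the assignment `t` of the block. -/
def Ty.value (τ : Ty) (e : Eqn) (t : F × F) : F :=
  match τ with
  | .full => 0
  | .s1 => t.1
  | .s2 => t.2
  | .s3 => t.1 + t.2 + e.rhs
  | .dr => 0

/-- The block is replaced by a single variable. -/
def Ty.isS (τ : Ty) : Prop := τ = .s1 ∨ τ = .s2 ∨ τ = .s3

/-- The provers win on all replaced blocks. -/
def Win {k : ℕ} {C ι : Type} [Zero C] (q : ι → Eqn)
    (sU : (Fin k → ι) → (Fin k → C × C) → (Fin k → F × F))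
    (sV : (Fin k → VB) → (Fin k → C × C) → (Fin k → F))
    (u : Fin k → ι) (τ : Fin k → Ty) (n : Fin k → C × C) : Prop :=
  ∀ i, (τ i).isS →
    sV (fun i => (τ i).vb (q (u i))) (fun i => (τ i).vis (n i)) i =
      (τ i).value (q (u i)) (sU u (fun i => (τ i).lift (n i)) i)

/-- The value of the outer game with shared advice in `C` tends to `0`. -/
def OuterBound : Prop := ∀ (γ ν : ℝ), 0 < γ → 0 < ν → ∀ r : ℕ, ∃ h : ℝ, 0 < h ∧
  ∀ (C : Type) [AddCommGroup C] [Fintype C], Fintype.card C ≤ r →
  ∀ (k : ℕ) (β : ℝ), 0 < β → β < 1 → h ≤ k * β →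
  ∀ (ι : Type) [Fintype ι] [Nonempty ι] (q : ι → Eqn),
    (∀ x : ℕ → Bool, γ * Fintype.card ι ≤ #{i | (q i).Viol x}) →
  ∀ (sU : (Fin k → ι) → (Fin k → C × C) → (Fin k → F × F))
    (sV : (Fin k → VB) → (Fin k → C × C) → (Fin k → F)),
    ∑ τ : Fin k → Ty, wts β τ *
      (Nat.card {p : (Fin k → ι) × (Fin k → C × C) | Win q sU sV p.1 τ p.2} /
        Fintype.card ((Fin k → ι) × (Fin k → C × C)) : ℝ) ≤ ν

/-- The lifted coefficients are almost uniformly distributed. -/
def Covering : Prop := ∀ (C : Type) [AddCommGroup C] [Fintype C] (k : ℕ) (β : ℝ),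
  0 ≤ β → β ≤ 1 → ∀ (K : ℝ) (Φ : (Fin k → C × C) → ℝ), (∀ n, 0 ≤ Φ n) → (∀ n, Φ n ≤ K) →
    |∑ τ : Fin k → Ty, wts β τ * ((∑ n : Fin k → C × C, Φ fun i => (τ i).lift (n i)) /
        Fintype.card (Fin k → C × C)) -
      (∑ n : Fin k → C × C, Φ n) / Fintype.card (Fin k → C × C)| ≤
      K * √(Real.exp (k * β ^ 2 * (Fintype.card C : ℝ) ^ 2) - 1)

/-- Given the lifted coefficients a block is replaced or dropped with small probability. -/
def Posterior : Prop := ∀ (C : Type) [AddCommGroup C] [Fintype C] [DecidableEq C] (k : ℕ) (β : ℝ),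
  0 ≤ β → β < 1 → ∀ (n₀ : Fin k → C × C) (i : Fin k),
    ∑ τ : Fin k → Ty, (if τ i = .full then 0 else
        wts β τ * #{n : Fin k → C × C | (fun i => (τ i).lift (n i)) = n₀}) ≤
      β * (Fintype.card C : ℝ) ^ 2 / (1 - β) *
        ∑ τ : Fin k → Ty, wts β τ * #{n : Fin k → C × C | (fun i => (τ i).lift (n i)) = n₀}

/-- The core theorem: for a system of equations of value bounded away from `1` no labelling of
the canonical symbols agrees with itself along random rank one moves. -/
def Core : Prop := ∀ δ γ : ℝ, 0 < δ → 0 < γ → ∃ m k : ℕ,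
  ∀ (ι : Type) [Fintype ι] [Nonempty ι] (q : ι → Eqn),
    (∀ x : ℕ → Bool, γ * Fintype.card ι ≤ #{i | (q i).Viol x}) →
  ∀ f : (Fin k → Sym (Fin m → F)) → (Fin m → F),
    (#{p : (Fin k → ι) × (Fin k → (Fin m → F) × (Fin m → F)) × (Fin m → F) × (Fin k → F × F) |
        tabU f (fun i => q (p.1 i)) (bump p.2.1 p.2.2.1 p.2.2.2) =
          tabU f (fun i => q (p.1 i)) p.2.1 ∨
        tabU f (fun i => q (p.1 i)) (bump p.2.1 p.2.2.1 p.2.2.2) =
          tabU f (fun i => q (p.1 i)) p.2.1 + p.2.2.1} : ℝ) ≤
      δ * Fintype.card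
        ((Fin k → ι) × (Fin k → (Fin m → F) × (Fin m → F)) × (Fin m → F) × (Fin k → F × F))

end Vale.Agent.P325.Star
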