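import Mathlib

/-!
# Interface of the star hardness project (Unique Games with completeness above one half)

Spaces of linear maps over the field with two elements, zooms, agreement of a table with the
linear structure, and the statements of the packages.
-/

namespace Vale.Agent.P325.Star

/-- The field with two elements. -/
abbrev F := ZMod 2

section Bilinear

variable {V W : Type} [AddCommGroup V] [Module F V] [AddCommGroup W] [Module F W]

/-- The map `v ↦ ψ v • w` of rank at most one. -/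
def one (w : W) (ψ : Module.Dual F V) : V →ₗ[F] W := ψ.smulRight w

/-- The linear maps with range in `B` that vanish on `A`. -/
def zoom (B : Submodule F W) (A : Submodule F V) : Submodule F (V →ₗ[F] W) where
  carrier := {M | LinearMap.range M ≤ B ∧ A ≤ LinearMap.ker M}
  zero_mem' := by simp
  add_mem' := by
    rintro M N ⟨h1, h2⟩ ⟨h3, h4⟩
    refine ⟨?_, fun a ha => ?_⟩
    · rintro _ ⟨v, rfl⟩
      exact B.add_mem (h1 ⟨v, rfl⟩) (h3 ⟨v, rfl⟩)
    · have h5 : M a = 0 := h2 ha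
      have h6 : N a = 0 := h4 ha
      simp [h5, h6]
  smul_mem' := by
    rintro c M ⟨h1, h2⟩
    refine ⟨?_, fun a ha => ?_⟩
    · rintro _ ⟨v, rfl⟩
      exact B.smul_mem _ (h1 ⟨v, rfl⟩)
    · have h5 : M a = 0 := h2 ha
      simp [h5]

theorem mem_zoom {B : Submodule F W} {A : Submodule F V} {M : V →ₗ[F] W} :
    M ∈ zoom B A ↔ (∀ v, M v ∈ B) ∧ ∀ a ∈ A, M a = 0 := by
  constructor
  · rintro ⟨h1, h2⟩
    exact ⟨fun v => h1 ⟨v, rfl⟩, fun a ha => h2 ha⟩
  · rintro ⟨h1, h2⟩
    refine ⟨?_, fun a ha => h2 a ha⟩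
    rintro _ ⟨v, rfl⟩
    exact h1 v

end Bilinear

/-- The structure theorem for sets of linear maps with non-negligible retention under random
rank one moves: such a set is dense in a zoom of bounded codimension. -/
def Expansion : Prop := ∀ η : ℝ, 0 < η → ∃ (R : ℕ) (ξ : ℝ), 0 < ξ ∧
  ∀ (V W : Type) [AddCommGroup V] [Module F V] [Finite V] [AddCommGroup W] [Module F W] [Finite W]
    (S : Set (V →ₗ[F] W)), S.Nonempty →
    η * Nat.card S * (Nat.card W * Nat.card (Module.Dual F V)) ≤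
      Nat.card {p : (V →ₗ[F] W) × W × Module.Dual F V | p.1 ∈ S ∧ p.1 + one p.2.1 p.2.2 ∈ S} →
    ∃ (B : Submodule F W) (A : Submodule F V) (M₀ : V →ₗ[F] W),
      Module.finrank F (W ⧸ B) ≤ R ∧ Module.finrank F A ≤ R ∧
      ξ * Nat.card (zoom B A) ≤ Nat.card {M : V →ₗ[F] W | M ∈ zoom B A ∧ M₀ + M ∈ S}

section Tables

variable {T W : Type} [AddCommGroup T] [Module F T] [AddCommGroup W] [Module F W]

/-- The triples `(N, c, ψ)` for which the table `G` agrees at `N` and `N + c ψ` modulo `c`. -/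
def agreeSet (G : (T →ₗ[F] W) → W) : Set ((T →ₗ[F] W) × W × Module.Dual F T) :=
  {p | G (p.1 + one p.2.1 p.2.2) = G p.1 ∨ G (p.1 + one p.2.1 p.2.2) = G p.1 + p.2.1}

/-- The coset `N₀ + Hom(T, B)` is good: in some zoom with at most `R` points the table agrees
with the evaluation at some point `t` with density at least `ξ`. -/
def Good (R : ℕ) (ξ : ℝ) (G : (T →ₗ[F] W) → W) (B : Submodule F W) (N₀ : T →ₗ[F] W) : Prop :=
  ∃ (A : Submodule F T) (N₁ : T →ₗ[F] W) (t : T), Module.finrank F A ≤ R ∧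
    N₁ - N₀ ∈ zoom B (⊥ : Submodule F T) ∧
    ξ * Nat.card (zoom B A) ≤
      Nat.card {M : T →ₗ[F] W | M ∈ zoom B A ∧ G (N₁ + M) = (N₁ + M) t}

/-- A tuple: a space of points `A`, prescribed values `b` on `A`, a point `t`, a shift `w`. -/
structure Tup (T W : Type) [AddCommGroup T] [Module F T] [AddCommGroup W] [Module F W] where
  A : Submodule F T
  b : A →ₗ[F] W
  t : T
  w : W

/-- The maps of the coset `N₀ + Hom(T, B)` with the values of the tuple `s` on `s.A`. -/
def Tup.zm (s : Tup T W) (B : Submodule F W) (N₀ : T →ₗ[F] W) : Set (T →ₗ[F] W) :=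
  {N | N - N₀ ∈ zoom B (⊥ : Submodule F T) ∧ ∀ a : s.A, N a = s.b a}

/-- Among these maps, those where `G` is the evaluation at `s.t` plus `s.w`. -/
def Tup.ev (s : Tup T W) (G : (T →ₗ[F] W) → W) (B : Submodule F W) (N₀ : T →ₗ[F] W) :
    Set (T →ₗ[F] W) :=
  {N | N ∈ s.zm B N₀ ∧ G N = N s.t + s.w}

/-- The density of agreement (`0` if no map of the coset has the prescribed values). -/
noncomputable def Tup.p (s : Tup T W) (G : (T →ₗ[F] W) → W) (B : Submodule F W)
    (N₀ : T →ₗ[F] W) : ℝ :=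
  (Nat.card (s.ev G B N₀) : ℝ) / Nat.card (s.zm B N₀)

/-- The restriction of a tuple to fewer points, with `t` moved by an element `a` of `s.A`. -/
def Tup.sub (s : Tup T W) (A' : Submodule F T) (h : A' ≤ s.A) (a : s.A) : Tup T W where
  A := A'
  b := s.b ∘ₗ Submodule.inclusion h
  t := s.t + a
  w := s.w + s.b a

/-- The candidates of dimension `j`: good and without good proper restriction. -/
def Cand (θ θ' : ℝ) (j : ℕ) (G : (T →ₗ[F] W) → W) (B : Submodule F W) (N₀ : T →ₗ[F] W) :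
    Set (Tup T W) :=
  {s | Module.finrank F s.A = j ∧ θ ≤ s.p G B N₀ ∧
    ∀ (A' : Submodule F T) (h : A' ≤ s.A), A' ≠ s.A → ∀ a : s.A, (s.sub A' h a).p G B N₀ < θ'}

end Tables

/-- Agreement with positive probability gives many good cosets. -/
def GoodZoom : Prop := ∀ δ : ℝ, 0 < δ → ∃ (R : ℕ) (ξ : ℝ), 0 < ξ ∧ ∀ m : ℕ,
  ∃ α : ℝ, 0 < α ∧ ∃ n₀ : ℕ,
  ∀ (T W : Type) [AddCommGroup T] [Module F T] [Finite T] [AddCommGroup W] [Module F W] [Finite W]
    (G : (T →ₗ[F] W) → W), Module.finrank F W = m → n₀ ≤ Module.finrank F T →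
    δ * Nat.card ((T →ₗ[F] W) × W × Module.Dual F T) ≤ Nat.card (agreeSet G) →
    ∃ B : Submodule F W, Module.finrank F (W ⧸ B) ≤ R ∧
      α * Nat.card (T →ₗ[F] W) ≤ Nat.card {N₀ : T →ₗ[F] W | Good R ξ G B N₀}

/-- There are boundedly many candidates. -/
def ListBound : Prop := ∀ (θ : ℝ) (j : ℕ), 0 < θ → ∃ m₀ : ℕ, ∀ m : ℕ, ∃ L : ℕ,
  ∀ (T W : Type) [AddCommGroup T] [Module F T] [Finite T] [AddCommGroup W] [Module F W] [Finite W]
    (G : (T →ₗ[F] W) → W) (B : Submodule F W) (N₀ : T →ₗ[F] W), Module.finrank F W = m →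
    m₀ ≤ Module.finrank F B → Nat.card (Cand θ (θ / 4) j G B N₀) ≤ L ∧
      (Cand θ (θ / 4) j G B N₀).Finite

end Vale.Agent.P325.Star
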