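import Vale.Agent.P325.Star.Blocks

/-!
# Gadgets

A gadget has `2 ^ s` terminals, named by the vectors of `Fin s → F`, and `a` private vertices.
An edge `(x, y, z)` asks that the labels of `x` and `y` differ by `z • c`. If the labels of the
terminals are a linear function up to the factor `c`, a fraction `p` of the edges can be
satisfied (`Gad.Yes`); if no two labels of terminals differ by an element of `{0, c}`, at most a
fraction `q` of the edges can be satisfied (`Gad.No`).
-/

namespace Vale.Agent.P325.Star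

open Finset

/-- A gadget. -/
structure Gad where
  s : ℕ
  a : ℕ
  E : List (((Fin s → F) ⊕ Fin a) × ((Fin s → F) ⊕ Fin a) × F)

/-- The number of edges of the gadget satisfied by labels in `W`. -/
def Gad.num (Γ : Gad) {W : Type} [AddCommGroup W] [Module F W] [DecidableEq W] (c : W)
    (τ : (Fin Γ.s → F) → W) (g : Fin Γ.a → W) : ℕ :=
  Γ.E.countP fun e => decide (Sum.elim τ g e.1 + Sum.elim τ g e.2.1 = e.2.2 • c)

/-- The value of the gadget on linear functions is at least `p`. -/
def Gad.Yes (Γ : Gad) (p : ℝ) : Prop :=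
  ∀ t : Fin Γ.s → F, ∃ g : Fin Γ.a → F, p * Γ.E.length ≤ Γ.num (1 : F) (fun l => l ⬝ᵥ t) g

/-- The value of the gadget on labels without relation is at most `p`. -/
def Gad.No (Γ : Gad) (p : ℝ) : Prop :=
  ∀ (W : Type) [AddCommGroup W] [Module F W] [DecidableEq W] (c : W) (τ : (Fin Γ.s → F) → W)
    (g : Fin Γ.a → W), c ≠ 0 → (∀ l l', l ≠ l' → τ l' ≠ τ l ∧ τ l' ≠ τ l + c) →
    (Γ.num c τ g : ℝ) ≤ p * Γ.E.length

/-- The choices made for a copy of the gadget: a tuple of equations, a table entry, a direction,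
and `s` functionals. -/
abbrev Par (ι : Type) (k m s : ℕ) :=
  (Fin k → ι) × (Fin k → (Fin m → F) × (Fin m → F)) × (Fin m → F) × (Fin s → Fin k → F × F)

/-- The label of the terminal `l` of a copy. -/
def termL {ι : Type} {k m s : ℕ} (q : ι → Eqn) (f : (Fin k → Sym (Fin m → F)) → (Fin m → F))
    (p : Par ι k m s) (l : Fin s → F) : Fin m → F :=
  tabU f (fun i => q (p.1 i)) (bump p.2.1 p.2.2.1 (∑ j, l j • p.2.2.2 j))

/-- Completeness: an assignment violating at most a fraction `ε` of the equations gives a labelling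
of all the copies of the gadget of value at least `(1 - k ε) p`. -/
def GadComplete : Prop := ∀ (Γ : Gad) (p : ℝ), 0 ≤ p → Γ.Yes p → ∀ (k m : ℕ) (ε : ℝ)
  (ι : Type) [Fintype ι] [Nonempty ι] (q : ι → Eqn) (x : ℕ → Bool),
  (#{i | (q i).Viol x} : ℝ) ≤ ε * Fintype.card ι →
  ∃ (f : (Fin k → Sym (Fin m → F)) → (Fin m → F)) (g : Par ι k m Γ.s → Fin Γ.a → (Fin m → F)),
    (1 - k * ε) * p * (Fintype.card (Par ι k m Γ.s) * Γ.E.length) ≤
      ∑ P : Par ι k m Γ.s, (Γ.num P.2.2.1 (termL q f P) (g P) : ℝ)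

/-- Soundness: if the tables disagree with themselves along almost all rank one moves, all
labellings of the copies of the gadget have small value. -/
def GadSound : Prop := ∀ (Γ : Gad) (p : ℝ), 1 ≤ Γ.s → Γ.No p → ∀ (k m : ℕ) (δ : ℝ)
  (ι : Type) [Fintype ι] [Nonempty ι] (q : ι → Eqn)
  (f : (Fin k → Sym (Fin m → F)) → (Fin m → F)),
    (#{P : (Fin k → ι) × (Fin k → (Fin m → F) × (Fin m → F)) × (Fin m → F) × (Fin k → F × F) |
        tabU f (fun i => q (P.1 i)) (bump P.2.1 P.2.2.1 P.2.2.2) =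
          tabU f (fun i => q (P.1 i)) P.2.1 ∨
        tabU f (fun i => q (P.1 i)) (bump P.2.1 P.2.2.1 P.2.2.2) =
          tabU f (fun i => q (P.1 i)) P.2.1 + P.2.2.1} : ℝ) ≤
      δ * Fintype.card
        ((Fin k → ι) × (Fin k → (Fin m → F) × (Fin m → F)) × (Fin m → F) × (Fin k → F × F)) →
  ∀ g : Par ι k m Γ.s → Fin Γ.a → (Fin m → F),
    ∑ P : Par ι k m Γ.s, (Γ.num P.2.2.1 (termL q f P) (g P) : ℝ) ≤
      (p + 4 ^ Γ.s * δ) * (Fintype.card (Par ι k m Γ.s) * Γ.E.length)

/-- The star with `4 ^ r` terminals `(b, b')` and one private vertex. -/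
noncomputable def starGad (r : ℕ) : Gad where
  s := r + r
  a := 1
  E := (Finset.univ : Finset (Fin (r + r) → F)).toList.map fun b =>
    (Sum.inr 0, Sum.inl b, ∑ i : Fin r, b (Fin.castAdd r i) * b (Fin.natAdd r i))

/-- The parameters of the star. -/
def StarVals : Prop := ∀ r : ℕ,
  (starGad r).Yes (1 / 2 + (1 / 2) ^ (r + 1)) ∧ (starGad r).No ((1 / 4) ^ r)

end Vale.Agent.P325.Star
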